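import Vale.Agent.P069.Space

/-!
A separable reflexive Banach space with an asymptotically midpoint uniformly convex norm and no
equivalent asymptotically uniformly convex norm.
-/

open Vale.Agent.P069

namespace Vale.Agent.Results.P069.AmucNotAuc

theorem result :
    ∃ (X : Type) (_ : NormedAddCommGroup X) (_ : NormedSpace ℝ X),
      CompleteSpace X ∧ TopologicalSpace.SeparableSpace X ∧ ¬ FiniteDimensional ℝ X ∧
      Function.Surjective (NormedSpace.inclusionInDoubleDual ℝ X) ∧
      IsAMUC (fun x : X => ‖x‖) ∧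
      (∀ t : ℝ, 0 < t → ∀ x : X, ‖x‖ = 1 →
        ∃ F : Submodule ℝ X, IsClosed (F : Set X) ∧ FiniteDimensional ℝ (X ⧸ F) ∧
          ∀ y ∈ F, ‖y‖ = 1 → 1 + min t 1 ^ 2 / 256 ≤ max ‖x + t • y‖ ‖x - t • y‖) ∧
      ¬ ∃ N : X → ℝ, IsEquivalentNorm N ∧ IsAUC N :=
  ⟨Big, inferInstance, inferInstance, inferInstance, big_separable, big_not_finiteDimensional,
    big_reflexive, big_amuc, big_amuc_modulus, big_no_auc⟩

end Vale.Agent.Results.P069.AmucNotAuc
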